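import Vale.Agent.P203.Tits.Strata

/-! P203, block TITS, part 4: equivariance of the strata and charts, disjoint neighbourhoods. -/

set_option linter.all false

namespace Vale.Agent.P203.Tits

open Vale.Agent.P203.Cox

variable {B : Type*} {W : Type*} [Group W] {M : CoxeterMatrix B} {cs : CoxeterSystem M W}

/-- the diagonal action on pairs -/
noncomputable def dact2 (cs : CoxeterSystem M W) (w : W) (p : (B → ℝ) × (B → ℝ)) :
    (B → ℝ) × (B → ℝ) := (dact cs w p.1, dact cs w p.2)

theorem dact2_mem_stratum {w u : W} {T : Set B} {p : (B → ℝ) × (B → ℝ)} :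
    dact2 cs w p ∈ stratum cs (w * u) T ↔ p ∈ stratum cs u T := by
  have h : ∀ x : B → ℝ, ev cs (w * u) (dact cs w x) = ev cs u x := fun x => by
    rw [ev_dact, inv_mul_cancel_left]
  simp only [stratum, dact2, Set.mem_setOf_eq, h]

theorem dact2_mem_stratum' {w u : W} {T : Set B} {p : (B → ℝ) × (B → ℝ)}
    (h : p ∈ stratum cs u T) : dact2 cs w p ∈ stratum cs (w * u) T :=
  dact2_mem_stratum.mpr h

theorem dact2_mem_Y [Finite B] {w : W} {p : (B → ℝ) × (B → ℝ)} (hp : p ∈ Y cs) :
    dact2 cs w p ∈ Y cs := by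
  obtain ⟨u, T, hT, h⟩ := exists_stratum hp
  exact mem_Y_of_stratum hT (dact2_mem_stratum' (w := w) h)

/-- the action on `Y` is free -/
theorem eq_one_of_dact2_eq [Finite B] {w : W} {p : (B → ℝ) × (B → ℝ)} (hp : p ∈ Y cs)
    (h : dact2 cs w p = p) : w = 1 := by
  obtain ⟨u, T, hT, h1⟩ := exists_stratum hp
  have h2 := dact2_mem_stratum' (w := w) h1
  rw [h] at h2
  have h3 := (stratum_unique h1 h2).1
  exact mul_eq_right.mp h3.symm

/-- the open set of points of the chart `(u, T)` whose second component is on the side of `u C`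
for all reflections in `W_T` -/
def cnbhd (cs : CoxeterSystem M W) (u : W) (T : Set B) : Set ((B → ℝ) × (B → ℝ)) :=
  {p | p.1 ∈ star cs u T ∧ ∀ r, cs.IsReflection r → r ∈ par cs T →
    0 < pr p.2 (act cs u (root cs r))}

theorem isOpen_cnbhd [Finite B] {T : Set B} (hT : Finite (par cs T)) (u : W) :
    IsOpen (cnbhd cs u T) := by
  have h : cnbhd cs u T = (Prod.fst ⁻¹' star cs u T) ∩ ⋂ r : par cs T,
      {p | cs.IsReflection (r : W) → 0 < pr p.2 (act cs u (root cs r))} := by
    ext p
    simp only [cnbhd, Set.mem_setOf_eq, Set.mem_inter_iff, Set.mem_preimage, Set.mem_iInter,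
      Subtype.forall]
    refine and_congr_right fun _ => ?_
    constructor
    · intro h r hr hr'; exact h r hr' hr
    · intro h r hr hr'; exact h r hr' hr
  rw [h]
  refine ((isOpen_star hT u).preimage continuous_fst).inter (isOpen_iInter_of_finite fun r => ?_)
  by_cases hr : cs.IsReflection (r : W)
  · simp only [hr, true_imp_iff]
    exact isOpen_lt continuous_const ((continuous_pr _).comp continuous_snd)
  · simp only [hr, false_imp_iff]
    exact isOpen_univ

theorem stratum_subset_cnbhd {T : Set B} (hT : Finite (par cs T)) (u : W) :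
    stratum cs u T ⊆ cnbhd cs u T := fun p hp => by
  refine ⟨(stratum_subset_chart hT u hp).1, fun r hr hrT => ?_⟩
  rw [← pr_ev]
  refine pr_pos (root_NN r) (fun i hi => ?_) (root_ne_zero hr)
  by_cases hiT : i ∈ T
  · exact (hp.1 i hiT).2
  · exact absurd (root_apply_of_mem_par hr hrT hiT) hi

/-- two open stars of facets of the same type meet only if they belong to the same facet -/
theorem star_inter {T : Set B} (hT : Finite (par cs T)) {u u' : W} {x : B → ℝ}
    (hx : x ∈ star cs u T) (hx' : x ∈ star cs u' T) : u⁻¹ * u' ∈ par cs T := by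
  obtain ⟨v, hv, h1, h2⟩ := (mem_star_iff hT).mp hx
  obtain ⟨v', hv', h1', -⟩ := (mem_star_iff hT).mp hx'
  have h3 := (facet_unique h1 h1').1
  have h4 : (u * v)⁻¹ * (u' * v') ∈ par cs T := by
    refine par_mono (fun i hi => ?_) h3
    by_contra hiT
    exact (h2 i hiT).ne' hi
  have e : u⁻¹ * u' = v * ((u * v)⁻¹ * (u' * v')) * v'⁻¹ := by group
  rw [e]
  exact mul_mem (mul_mem hv h4) (inv_mem hv')

/-- translates of the neighbourhood `cnbhd` are disjoint -/
theorem cnbhd_disjoint {T : Set B} (hT : Finite (par cs T)) {u w : W}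
    {p : (B → ℝ) × (B → ℝ)} (hp : p ∈ cnbhd cs u T) (hq : dact2 cs w p ∈ cnbhd cs u T) :
    w = 1 := by
  -- `p` lies in the neighbourhood of `w⁻¹ u`
  have hp1 : p.1 ∈ star cs (w⁻¹ * u) T := by
    intro v hv s hs
    have := hq.1 v hv s hs
    simp only [dact2] at this
    rw [ev_dact] at this
    rwa [mul_assoc]
  have hp2 : ∀ r, cs.IsReflection r → r ∈ par cs T →
      0 < pr p.2 (act cs (w⁻¹ * u) (root cs r)) := by
    intro r hr hrT
    have := hq.2 r hr hrT
    simp only [dact2] at this
    rw [pr_dact] at this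
    rwa [act_mul_apply]
  have h1 := star_inter hT hp.1 hp1
  by_contra hw
  have h2 : u⁻¹ * (w⁻¹ * u) ≠ 1 := by
    intro h
    rw [inv_mul_eq_one] at h
    apply hw
    have h3 : w⁻¹ = 1 := mul_eq_right.mp h.symm
    exact inv_eq_one.mp h3
  obtain ⟨j, hj, hl, -⟩ := exists_rightDescent_par h1 h2
  set g := u⁻¹ * (w⁻¹ * u) with hg
  have hug : w⁻¹ * u = u * g := by rw [hg]; group
  have h4 : act cs g (Finsupp.single j 1) = - root cs (g * cs.simple j * g⁻¹) :=
    act_single_desc (by omega)
  have h5 := hp2 (cs.simple j) (cs.isReflection_simple j) (simple_mem_par hj)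
  rw [root_simple, hug, act_mul_apply, h4, map_neg, map_neg] at h5
  have h6 := hp.2 _ (isRefl_conj_simple g j)
    (mul_mem (mul_mem h1 (simple_mem_par hj)) (inv_mem h1))
  linarith

/-- every point of `Y` has an open neighbourhood disjoint from its translates -/
theorem exists_disjoint_nbhd [Finite B] {p : (B → ℝ) × (B → ℝ)} (hp : p ∈ Y cs) :
    ∃ N : Set ((B → ℝ) × (B → ℝ)), IsOpen N ∧ p ∈ N ∧
      ∀ w : W, ∀ q ∈ N, dact2 cs w q ∈ N → w = 1 := by
  obtain ⟨u, T, hT, h⟩ := exists_stratum hp
  exact ⟨cnbhd cs u T, isOpen_cnbhd hT u, stratum_subset_cnbhd hT u h,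
    fun w q hq hq' => cnbhd_disjoint hT hq hq'⟩

/-- the order of cells is invariant under left multiplication -/
theorem cle_mul_left {w u u' : W} {T T' : Set B} :
    cle cs (w * u') T' (w * u) T ↔ cle cs u' T' u T := by
  have e : (w * u)⁻¹ * (w * u') = u⁻¹ * u' := by group
  simp only [cle, e]

end Vale.Agent.P203.Tits
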