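import Vale.Agent.P203.Cox0.GeomRep

/-! P203, block TITS, part 1: the dual action of a Coxeter group, the closed fundamental
chamber is a fundamental domain, parabolic subgroups act on `V^*`. -/

set_option linter.all false

namespace Vale.Agent.P203.Tits

open Vale.Agent.P203.Cox

variable {B : Type*} {W : Type*} [Group W] {M : CoxeterMatrix B} {cs : CoxeterSystem M W}

/-- the pairing of a functional (given by its values on the simple roots) with a vector -/
noncomputable def pr (x : B → ℝ) : VSp B →ₗ[ℝ] ℝ := Finsupp.linearCombination ℝ x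

theorem pr_single (x : B → ℝ) (i : B) (a : ℝ) : pr x (Finsupp.single i a) = a * x i := by
  simp [pr]

theorem pr_e (x : B → ℝ) (i : B) : pr x (Finsupp.single i 1) = x i := by
  rw [pr_single, one_mul]

theorem pr_add (x y : B → ℝ) (v : VSp B) : pr (x + y) v = pr x v + pr y v := by
  induction v using Finsupp.induction_linear with
  | zero => simp
  | add f g hf hg => rw [map_add, map_add, map_add, hf, hg]; ring
  | single i a => rw [pr_single, pr_single, pr_single, Pi.add_apply]; ring

theorem pr_smul (c : ℝ) (x : B → ℝ) (v : VSp B) : pr (c • x) v = c * pr x v := by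
  induction v using Finsupp.induction_linear with
  | zero => simp
  | add f g hf hg => rw [map_add, map_add, hf, hg]; ring
  | single i a => rw [pr_single, pr_single, Pi.smul_apply, smul_eq_mul]; ring

theorem pr_nonneg {x : B → ℝ} (hx : ∀ i, 0 ≤ x i) {v : VSp B} (hv : NN v) : 0 ≤ pr x v := by
  rw [pr, Finsupp.linearCombination_apply]
  exact Finsupp.sum_nonneg fun i _ => mul_nonneg (hv i) (hx i)

/-- functionals that are nonnegative on the simple roots: a nonnegative vector has value zero
iff it is supported on the zeros -/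
theorem pr_eq_zero {x : B → ℝ} (hx : ∀ i, 0 ≤ x i) {v : VSp B} (hv : NN v) (h : pr x v = 0) :
    ∀ i, x i ≠ 0 → v i = 0 := by
  intro i hi
  by_contra hvi
  rw [pr, Finsupp.linearCombination_apply, Finsupp.sum] at h
  have h1 := (Finset.sum_eq_zero_iff_of_nonneg
    (fun j _ => mul_nonneg (hv j) (hx j))).mp h i (Finsupp.mem_support_iff.mpr hvi)
  rcases mul_eq_zero.mp h1 with h2 | h2
  · exact hvi h2
  · exact hi h2

theorem pr_pos {x : B → ℝ} {v : VSp B} (hv : NN v) (hx : ∀ i, v i ≠ 0 → 0 < x i) (h0 : v ≠ 0) :
    0 < pr x v := by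
  rw [pr, Finsupp.linearCombination_apply, Finsupp.sum]
  refine Finset.sum_pos (fun i hi => ?_) (Finsupp.support_nonempty_iff.mpr h0)
  have h1 := Finsupp.mem_support_iff.mp hi
  exact mul_pos (lt_of_le_of_ne (hv i) (Ne.symm h1)) (hx i h1)

theorem pr_congr {x y : B → ℝ} {v : VSp B} (h : ∀ i, v i ≠ 0 → x i = y i) : pr x v = pr y v := by
  rw [pr, pr, Finsupp.linearCombination_apply, Finsupp.linearCombination_apply]
  refine Finsupp.sum_congr fun i hi => ?_
  rw [h i (Finsupp.mem_support_iff.mp hi)]

/-! ### The dual action -/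

/-- the dual action of `w` on functionals: `(w x)(v) = x (w⁻¹ v)` -/
noncomputable def dact (cs : CoxeterSystem M W) (w : W) : (B → ℝ) →ₗ[ℝ] (B → ℝ) where
  toFun x i := pr x (act cs w⁻¹ (Finsupp.single i 1))
  map_add' x y := by ext i; exact pr_add x y _
  map_smul' c x := by ext i; exact pr_smul c x _

theorem dact_apply (w : W) (x : B → ℝ) (i : B) :
    dact cs w x i = pr x (act cs w⁻¹ (Finsupp.single i 1)) := rfl

theorem pr_dact (w : W) (x : B → ℝ) (v : VSp B) :
    pr (dact cs w x) v = pr x (act cs w⁻¹ v) := by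
  induction v using Finsupp.induction_linear with
  | zero => simp
  | add f g hf hg => rw [map_add, map_add, map_add, hf, hg]
  | single i a =>
    rw [pr_single, dact_apply, ← Finsupp.smul_single_one i a, map_smul, map_smul, smul_eq_mul]

theorem pr_ext {x y : B → ℝ} (h : ∀ v, pr x v = pr y v) : x = y := by
  ext i
  rw [← pr_e x i, ← pr_e y i, h]

theorem dact_one : dact cs 1 = LinearMap.id := by
  ext1 x
  refine pr_ext fun v => ?_
  rw [pr_dact, inv_one, act_one_apply]; rfl

theorem dact_one_apply (x : B → ℝ) : dact cs 1 x = x := by rw [dact_one]; rfl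

theorem dact_mul_apply (w w' : W) (x : B → ℝ) :
    dact cs (w * w') x = dact cs w (dact cs w' x) := by
  refine pr_ext fun v => ?_
  rw [pr_dact, pr_dact, pr_dact, mul_inv_rev, act_mul_apply]

theorem dact_inv_apply_self (w : W) (x : B → ℝ) : dact cs w⁻¹ (dact cs w x) = x := by
  rw [← dact_mul_apply, inv_mul_cancel, dact_one_apply]

theorem dact_self_inv_apply (w : W) (x : B → ℝ) : dact cs w (dact cs w⁻¹ x) = x := by
  rw [← dact_mul_apply, mul_inv_cancel, dact_one_apply]

theorem dact_simple (i j : B) (x : B → ℝ) :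
    dact cs (cs.simple i) x j = x j - gram M i j * x i := by
  rw [dact_apply, cs.inv_simple, act_simple, map_sub, map_smul, pr_e, pr_e, datum_act,
    smul_eq_mul]

/-- the dual action as a group homomorphism into the linear automorphisms -/
noncomputable def dactHom (cs : CoxeterSystem M W) : W →* ((B → ℝ) ≃ₗ[ℝ] (B → ℝ)) where
  toFun w := LinearEquiv.ofLinear (dact cs w) (dact cs w⁻¹)
    (by ext1 x; exact dact_self_inv_apply w x) (by ext1 x; exact dact_inv_apply_self w x)
  map_one' := by ext1 x; exact dact_one_apply x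
  map_mul' w w' := by ext1 x; exact dact_mul_apply w w' x

theorem dactHom_apply (w : W) (x : B → ℝ) : dactHom cs w x = dact cs w x := rfl

/-! ### Parabolic subgroups -/

/-- the parabolic subgroup of a set of simple reflections -/
abbrev par (cs : CoxeterSystem M W) (T : Set B) : Subgroup W :=
  Subgroup.closure (cs.simple '' T)

theorem simple_mem_par {T : Set B} {t : B} (ht : t ∈ T) : cs.simple t ∈ par cs T :=
  Subgroup.subset_closure ⟨t, ht, rfl⟩

theorem par_mono {T T' : Set B} (h : T ⊆ T') : par cs T ≤ par cs T' :=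
  Subgroup.closure_mono (Set.image_mono h)

/-- elements of `W_T` do not change the coordinates outside `T` -/
theorem act_apply_of_mem_par {T : Set B} {w : W} (hw : w ∈ par cs T) (v : VSp B) {i : B}
    (hi : i ∉ T) : act cs w v i = v i := by
  induction hw using Subgroup.closure_induction generalizing v with
  | mem x hx =>
    obtain ⟨t, ht, rfl⟩ := hx
    rw [act_simple, Finsupp.sub_apply, Finsupp.smul_apply, Finsupp.single_eq_of_ne, smul_zero,
      sub_zero]
    rintro rfl; exact hi ht
  | one => rw [act_one_apply]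
  | mul x y _ _ hx hy => rw [act_mul_apply, hx, hy]
  | inv x _ hx => rw [← hx (act cs x⁻¹ v), act_self_inv_apply]

theorem act_single_NN_of_notMem {T : Set B} {w : W} (hw : w ∈ par cs T) {s : B} (hs : s ∉ T) :
    NN (act cs w (Finsupp.single s 1)) := by
  have h1 := act_apply_of_mem_par hw (Finsupp.single s 1) hs
  rw [Finsupp.single_eq_same] at h1
  rcases act_single_eq_or (cs := cs) (w := w) (i := s) with h | h
  · rw [h]; exact root_NN _
  · exfalso
    have h2 := root_NN (cs := cs) (w * cs.simple s * w⁻¹) s
    rw [h, Finsupp.neg_apply] at h1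
    linarith

/-- a right descent of an element of `W_T` is in `T` -/
theorem mem_of_rightDescent {T : Set B} {w : W} (hw : w ∈ par cs T) {j : B}
    (hj : cs.length (w * cs.simple j) < cs.length w) : j ∈ T := by
  by_contra hjT
  have h1 := act_single_NN_of_notMem hw hjT
  rw [act_single_desc hj] at h1
  exact root_ne_zero (isRefl_conj_simple w j) (eq_zero_of_NN (root_NN _) h1)

theorem exists_rightDescent_par {T : Set B} {w : W} (hw : w ∈ par cs T) (h1 : w ≠ 1) :
    ∃ j ∈ T, cs.length (w * cs.simple j) + 1 = cs.length w ∧ w * cs.simple j ∈ par cs T := by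
  obtain ⟨j, hj⟩ := cs.exists_rightDescent_of_ne_one h1
  unfold CoxeterSystem.IsRightDescent at hj
  have hjT := mem_of_rightDescent hw hj
  refine ⟨j, hjT, ?_, mul_mem hw (simple_mem_par hjT)⟩
  rcases cs.length_mul_simple w j with h | h <;> omega

/-- the root of a reflection in `W_T` is supported on `T` -/
theorem root_apply_of_mem_par {T : Set B} {t : W} (ht : cs.IsReflection t) (htT : t ∈ par cs T)
    {i : B} (hi : i ∉ T) : root cs t i = 0 := by
  have h1 := act_apply_of_mem_par htT (root cs t) hi
  rw [act_root_self ht, Finsupp.neg_apply] at h1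
  linarith

/-- a functional which is zero on `T` is fixed by `W_T` -/
theorem pr_act_of_mem_par {T : Set B} {w : W} (hw : w ∈ par cs T) {x : B → ℝ}
    (hx : ∀ t ∈ T, x t = 0) (v : VSp B) : pr x (act cs w v) = pr x v := by
  have h1 : pr x (act cs w v - v) = 0 := by
    have h0 : pr (0 : B → ℝ) (act cs w v - v) = 0 := by
      have := pr_smul (0 : ℝ) (0 : B → ℝ) (act cs w v - v)
      simpa using this
    rw [← h0]
    refine pr_congr fun i hi => ?_
    by_cases hiT : i ∈ T
    · rw [hx i hiT]; rfl
    · exfalso; apply hi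
      rw [Finsupp.sub_apply, act_apply_of_mem_par hw v hiT, sub_self]
  rw [map_sub] at h1
  linarith

theorem dact_of_mem_par {T : Set B} {w : W} (hw : w ∈ par cs T) {x : B → ℝ}
    (hx : ∀ t ∈ T, x t = 0) : dact cs w x = x := by
  refine pr_ext fun v => ?_
  rw [pr_dact, pr_act_of_mem_par (inv_mem hw) hx]

/-! ### The closed fundamental chamber is a fundamental domain -/

theorem fund_aux (n : ℕ) : ∀ (w : W) (x : B → ℝ), cs.length w = n → (∀ i, 0 ≤ x i) →
    (∀ i, 0 ≤ dact cs w x i) → w ∈ par cs {i | x i = 0} := by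
  induction n with
  | zero =>
    intro w x hw _ _
    rw [cs.length_eq_zero_iff] at hw
    rw [hw]; exact one_mem _
  | succ n ih =>
    intro w x hw hx hwx
    have hw1 : w ≠ 1 := by rintro rfl; simp at hw
    obtain ⟨j, hj⟩ := cs.exists_rightDescent_of_ne_one hw1
    unfold CoxeterSystem.IsRightDescent at hj
    have hj' : cs.length (w * cs.simple j) + 1 = cs.length w := by
      rcases cs.length_mul_simple w j with h | h <;> omega
    -- `w e_j < 0`, so `x j = (w x) (w e_j) ≤ 0`
    have h1 : pr (dact cs w x) (act cs w (Finsupp.single j 1)) = x j := by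
      rw [pr_dact, act_inv_apply_self, pr_e]
    have h2 : 0 ≤ pr (dact cs w x) (root cs (w * cs.simple j * w⁻¹)) :=
      pr_nonneg hwx (root_NN _)
    rw [act_single_desc hj, map_neg] at h1
    have hxj : x j = 0 := le_antisymm (by linarith) (hx j)
    have h3 : dact cs (cs.simple j) x = x := by
      ext k
      rw [dact_simple, hxj, mul_zero, sub_zero]
    have h4 : dact cs (w * cs.simple j) x = dact cs w x := by
      rw [dact_mul_apply, h3]
    have h5 := ih (w * cs.simple j) x (by omega) hx (by rw [h4]; exact hwx)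
    have h6 : w = w * cs.simple j * cs.simple j := by
      rw [cs.simple_mul_simple_cancel_right]
    rw [h6]
    exact mul_mem h5 (simple_mem_par hxj)

/-- `x` and `w x` in the closed fundamental chamber imply `w ∈ W_{x = 0}` -/
theorem mem_par_of_nonneg {w : W} {x : B → ℝ} (hx : ∀ i, 0 ≤ x i)
    (hwx : ∀ i, 0 ≤ dact cs w x i) : w ∈ par cs {i | x i = 0} :=
  fund_aux (cs := cs) _ w x rfl hx hwx

theorem dact_eq_self_of_nonneg {w : W} {x : B → ℝ} (hx : ∀ i, 0 ≤ x i)
    (hwx : ∀ i, 0 ≤ dact cs w x i) : dact cs w x = x :=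
  dact_of_mem_par (mem_par_of_nonneg hx hwx) fun _ ht => ht

theorem dact_eq_self_iff {w : W} {x : B → ℝ} (hx : ∀ i, 0 ≤ x i) :
    dact cs w x = x ↔ w ∈ par cs {i | x i = 0} := by
  refine ⟨fun h => mem_par_of_nonneg hx (by rw [h]; exact hx), fun h => ?_⟩
  exact dact_of_mem_par h fun _ ht => ht

end Vale.Agent.P203.Tits
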