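import Vale.Agent.P203.Tits.Action
import Vale.Agent.P203.Top.Stmt
import Vale.Agent.P203.Top.AE
import Vale.Agent.P203.Sph.Cells

/-! P203, block TITS, part 5: translation to the statement-level objects of `Top/Stmt.lean`
(`titsCone M`, `complementSet M`), and the stratification of `complementSet M` by the cells
`(u, T)` of `W`. -/

set_option linter.all false

namespace Vale.Agent.P203.Tits

open Vale.Agent.P203.Cox

variable {S : Type} {M : CoxeterMatrix S}

theorem titsCone_eq : Vale.Agent.P203.titsCone M = titsCone M.toCoxeterSystem := by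
  ext x
  rw [mem_titsCone_iff]
  simp only [Vale.Agent.P203.titsCone, Set.mem_iUnion, Set.mem_image, chamber, Set.mem_setOf_eq]
  constructor
  · rintro ⟨w, y, hy, rfl⟩
    refine ⟨w⁻¹, fun i => ?_⟩
    rw [rho_eq, dact_inv_apply_self]
    exact hy i
  · rintro ⟨w, hw⟩
    exact ⟨w⁻¹, dact M.toCoxeterSystem w x, hw, by rw [rho_eq, dact_inv_apply_self]⟩

/-- the hyperplane `w {x s = 0}` is the zero set of the root `w e_s` -/
theorem mem_hyperplane_iff {w : M.Group} {s : S} {x : S → ℝ} :
    x ∈ rho M w '' {x | x s = 0} ↔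
      pr x (act M.toCoxeterSystem w (Finsupp.single s 1)) = 0 := by
  constructor
  · rintro ⟨y, hy, rfl⟩
    rw [rho_eq, pr_dact, act_inv_apply_self, pr_e]
    exact hy
  · intro h
    refine ⟨rho M w⁻¹ x, ?_, rho_rho_inv M w x⟩
    rw [rho_eq, Set.mem_setOf_eq, dact_apply, inv_inv]
    exact h

theorem complementSet_eq : complementSet M = Y M.toCoxeterSystem := by
  ext p
  simp only [complementSet, Y, Set.mem_setOf_eq, titsCone_eq]
  refine and_congr_right fun _ => ?_
  constructor
  · intro h r hr
    obtain ⟨w, s, h1, h2, -⟩ := root_spec hr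
    have h3 := h _ ⟨w, s, rfl⟩
    rw [mem_hyperplane_iff, mem_hyperplane_iff, ← h2] at h3
    tauto
  · rintro h H ⟨w, s, rfl⟩
    rw [mem_hyperplane_iff, mem_hyperplane_iff]
    have h1 := h _ (isRefl_conj_simple (cs := M.toCoxeterSystem) w s)
    rcases act_single_eq_or (cs := M.toCoxeterSystem) (w := w) (i := s) with h2 | h2
    · rw [h2]; tauto
    · rw [h2, map_neg, map_neg, neg_eq_zero, neg_eq_zero]; tauto

theorem spherical_iff {T : Finset S} :
    Spherical M T ↔ Finite (par M.toCoxeterSystem (T : Set S)) := Iff.rfl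

theorem isOpen_complementSet [Finite S] : IsOpen (complementSet M) := by
  rw [complementSet_eq]; exact isOpen_Y

theorem Spherical.fin {T : Finset S} (h : Spherical M T) :
    Finite (par M.toCoxeterSystem (T : Set S)) := h

theorem exists_cell [Finite S] {p : (S → ℝ) × (S → ℝ)} (hp : p ∈ complementSet M) :
    ∃ c : M.Group × Finset S, Spherical M c.2 ∧ p ∈ stratum M.toCoxeterSystem c.1 c.2 := by
  rw [complementSet_eq] at hp
  obtain ⟨u, T, hT, h⟩ := exists_stratum hp
  refine ⟨(u, (Set.toFinite T).toFinset), ?_, ?_⟩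
  · rw [spherical_iff, Set.Finite.coe_toFinset]; exact hT
  · rw [Set.Finite.coe_toFinset]; exact h

/-- A cell `(u, T)` of the Coxeter group: `u ∈ W` and `T` spherical. -/
@[ext] structure WCell (M : CoxeterMatrix S) where
  /-- the group element -/
  g : M.Group
  /-- the type -/
  T : Finset S
  /-- the type is spherical -/
  sph : Spherical M T

open Vale.Agent.P203.Sph in
instance : PartialOrder (WCell M) where
  le c d := c.T ⊆ d.T ∧ MinIn M (d.T : Set S) (c.T : Set S) (d.g⁻¹ * c.g)
  le_refl c := ⟨subset_rfl, by rw [inv_mul_cancel]; exact minIn_one _ _⟩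
  le_trans c d e hcd hde := by
    obtain ⟨h1, hw⟩ := hcd
    obtain ⟨h2, hv⟩ := hde
    obtain ⟨h3, -⟩ := hv.mul hw (by exact_mod_cast h2) (by exact_mod_cast h1)
    refine ⟨h1.trans h2, ?_⟩
    have e1 : e.g⁻¹ * d.g * (d.g⁻¹ * c.g) = e.g⁻¹ * c.g := by group
    rwa [e1] at h3
  le_antisymm c d hcd hdc := by
    obtain ⟨h1, hw⟩ := hcd
    obtain ⟨h2, -⟩ := hdc
    have hT : c.T = d.T := subset_antisymm h1 h2
    rw [hT] at hw
    have := hw.eq_one
    exact WCell.ext (inv_mul_eq_one.mp this).symm hT

open Vale.Agent.P203.Sph in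
theorem WCell.le_def {c d : WCell M} :
    c ≤ d ↔ c.T ⊆ d.T ∧ MinIn M (d.T : Set S) (c.T : Set S) (d.g⁻¹ * c.g) := Iff.rfl

theorem WCell.le_iff_cle {c d : WCell M} :
    c ≤ d ↔ cle M.toCoxeterSystem c.g (c.T : Set S) d.g (d.T : Set S) := by
  rw [WCell.le_def]
  refine and_congr (by exact_mod_cast Iff.rfl) ?_
  exact Iff.rfl

theorem WCell.fin (c : WCell M) : Finite (par M.toCoxeterSystem (c.T : Set S)) := c.sph

/-- left translation of cells -/
def WCell.translate (w : M.Group) (c : WCell M) : WCell M := ⟨w * c.g, c.T, c.sph⟩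

/-- The stratum of a point of `Y`. -/
noncomputable def strat [Finite S] (p : complementSet M) : WCell M :=
  ⟨(exists_cell p.2).choose.1, (exists_cell p.2).choose.2, (exists_cell p.2).choose_spec.1⟩

theorem mem_stratum_strat [Finite S] (p : complementSet M) :
    p.1 ∈ stratum M.toCoxeterSystem (strat p).g (strat p).T := (exists_cell p.2).choose_spec.2

theorem strat_eq_iff [Finite S] {p : complementSet M} {c : WCell M} :
    strat p = c ↔ p.1 ∈ stratum M.toCoxeterSystem c.g c.T := by
  constructor
  · rintro rfl; exact mem_stratum_strat p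
  · intro h
    obtain ⟨h1, h2⟩ := stratum_unique (mem_stratum_strat p) h
    exact WCell.ext h1 (Finset.coe_injective h2)

/-- every cell is the stratum of some point -/
theorem strat_surjective [Finite S] : Function.Surjective (strat : complementSet M → WCell M) := by
  intro c
  have h := center_mem_stratum (cs := M.toCoxeterSystem) c.g (c.T : Set S)
  have h1 : center M.toCoxeterSystem c.g (c.T : Set S) ∈ complementSet M := by
    rw [complementSet_eq]
    exact mem_Y_of_stratum (cs := M.toCoxeterSystem) c.fin h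
  exact ⟨⟨_, h1⟩, strat_eq_iff.mpr h⟩

theorem strat_le_iff [Finite S] {p : complementSet M} {c : WCell M} :
    strat p ≤ c ↔ p.1 ∈ chart M.toCoxeterSystem c.g (c.T : Set S) := by
  rw [mem_chart_iff (cs := M.toCoxeterSystem) c.fin, WCell.le_iff_cle]
  constructor
  · intro h
    exact ⟨_, _, h, mem_stratum_strat p⟩
  · rintro ⟨u', T', h1, h2⟩
    obtain ⟨h3, h4⟩ := stratum_unique (mem_stratum_strat p) h2
    rw [h3, h4]; exact h1

/-- the sets `{strat ≤ c}` are open -/
theorem isOpen_strat_le [Finite S] (c : WCell M) : IsOpen {p : complementSet M | strat p ≤ c} := by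
  have h : {p : complementSet M | strat p ≤ c} =
      Subtype.val ⁻¹' chart M.toCoxeterSystem c.g (c.T : Set S) := by
    ext p; exact strat_le_iff
  rw [h]
  exact (isOpen_chart (cs := M.toCoxeterSystem) c.fin c.g).preimage continuous_subtype_val

theorem chart_subset_complementSet [Finite S] (c : WCell M) :
    chart M.toCoxeterSystem c.g (c.T : Set S) ⊆ complementSet M := by
  rw [complementSet_eq]
  exact chart_subset_Y (cs := M.toCoxeterSystem) c.fin c.g

/-- the sets `{strat ≤ c}` are absolute extensors -/
theorem AE_strat_le [Finite S] (c : WCell M) :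
    Vale.Agent.P203.Top.AE {p : complementSet M | strat p ≤ c} := by
  classical
  have h1 : Vale.Agent.P203.Top.AE (chart M.toCoxeterSystem c.g (c.T : Set S)) :=
    Vale.Agent.P203.Top.AE.of_starConvex (isOpen_chart (cs := M.toCoxeterSystem) c.fin c.g)
      (center_mem_chart (cs := M.toCoxeterSystem) c.fin c.g)
      (starConvex_chart_center (cs := M.toCoxeterSystem) c.fin c.g)
  obtain ⟨p₀, hp₀⟩ := strat_surjective c
  refine h1.of_retract (fun q => if h : q ∈ complementSet M then ⟨q, h⟩ else p₀) Subtype.val
    ?_ continuous_subtype_val.continuousOn ?_ ?_ ?_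
  · rw [Topology.IsInducing.subtypeVal.continuousOn_iff]
    refine continuousOn_id.congr fun q hq => ?_
    simp only [Function.comp_apply, chart_subset_complementSet c hq, dif_pos, id]
  · intro q hq
    simp only [chart_subset_complementSet c hq, dif_pos, Set.mem_setOf_eq]
    exact strat_le_iff.mpr hq
  · intro p hp
    exact strat_le_iff.mp hp
  · intro p hp
    simp only [p.2, dif_pos]

theorem smul_val [Finite S] (w : M.Group) (p : complementSet M) :
    (w • p).1 = dact2 M.toCoxeterSystem w p.1 := by
  show (rho M w p.1.1, rho M w p.1.2) = _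
  rw [rho_eq]; rfl

theorem strat_smul [Finite S] (w : M.Group) (p : complementSet M) :
    strat (w • p) = (strat p).translate w := by
  rw [strat_eq_iff, smul_val]
  exact dact2_mem_stratum' (mem_stratum_strat p)

/-- The action of `W` on `Y` is free. -/
theorem eq_one_of_smul_eq [Finite S] {w : M.Group} {p : complementSet M} (h : w • p = p) :
    w = 1 := by
  have h1 := strat_smul w p
  rw [h] at h1
  have h2 : (strat p).g = w * (strat p).g := congrArg WCell.g h1
  exact mul_eq_right.mp h2.symm

/-- Every point of `Y` has a neighbourhood which is disjoint from its translates. -/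
theorem exists_nhds_disjoint [Finite S] (p : complementSet M) :
    ∃ N ∈ nhds p, ∀ w : M.Group, ((w • ·) '' N ∩ N).Nonempty → w = 1 := by
  have hp : p.1 ∈ Y M.toCoxeterSystem := by rw [← complementSet_eq]; exact p.2
  obtain ⟨N, hN, hpN, hd⟩ := exists_disjoint_nbhd hp
  refine ⟨Subtype.val ⁻¹' N, (hN.preimage continuous_subtype_val).mem_nhds hpN, ?_⟩
  rintro w ⟨_, ⟨q, hq, rfl⟩, hq'⟩
  refine hd w q.1 hq ?_
  have : (w • q).1 ∈ N := hq'
  rwa [smul_val] at this

end Vale.Agent.P203.Tits
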