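import Vale.Agent.P203.Tits.Basic
import Mathlib.Data.Set.Finite.List

/-! P203, block TITS, part 2: finite parabolic subgroups, the open stars, the interior of the
Tits cone. -/

set_option linter.all false

namespace Vale.Agent.P203.Tits

open Vale.Agent.P203.Cox

variable {B : Type*} {W : Type*} [Group W] {M : CoxeterMatrix B} {cs : CoxeterSystem M W}

/-! ### Values on the simple roots of the chamber `u C` -/

/-- `ev cs u x i` is the value of `x` on the root `u e_i`; in other words `ev cs u x = u⁻¹ x` -/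
noncomputable def ev (cs : CoxeterSystem M W) (u : W) (x : B → ℝ) (i : B) : ℝ :=
  pr x (act cs u (Finsupp.single i 1))

theorem ev_eq_dact (u : W) (x : B → ℝ) : ev cs u x = dact cs u⁻¹ x := by
  ext i; rw [dact_apply, inv_inv]; rfl

theorem pr_ev (u : W) (x : B → ℝ) (v : VSp B) : pr (ev cs u x) v = pr x (act cs u v) := by
  rw [ev_eq_dact, pr_dact, inv_inv]

theorem ev_mul (u w : W) (x : B → ℝ) : ev cs (u * w) x = ev cs w (ev cs u x) := by
  refine pr_ext fun v => ?_
  rw [pr_ev, pr_ev, pr_ev, act_mul_apply]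

theorem ev_one (x : B → ℝ) : ev cs 1 x = x := by
  refine pr_ext fun v => ?_
  rw [pr_ev, act_one_apply]

theorem ev_dact (u w : W) (x : B → ℝ) : ev cs u (dact cs w x) = ev cs (w⁻¹ * u) x := by
  rw [ev_mul, ev_eq_dact w⁻¹ x, inv_inv]

theorem ev_dact_self (u : W) (x : B → ℝ) : ev cs u (dact cs u x) = x := by
  rw [ev_dact, inv_mul_cancel, ev_one]

theorem dact_ev_self (u : W) (x : B → ℝ) : dact cs u (ev cs u x) = x := by
  rw [ev_eq_dact, dact_self_inv_apply]

theorem ev_add (u : W) (x y : B → ℝ) : ev cs u (x + y) = ev cs u x + ev cs u y := by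
  rw [ev_eq_dact, ev_eq_dact, ev_eq_dact, map_add]

theorem ev_smul (u : W) (c : ℝ) (x : B → ℝ) : ev cs u (c • x) = c • ev cs u x := by
  rw [ev_eq_dact, ev_eq_dact, map_smul]

theorem ev_ne_zero_of {u : W} {x : B → ℝ} (h : ∀ i, 0 < ev cs u x i) {v : VSp B} (hv : NN v)
    (h0 : v ≠ 0) : 0 < pr x (act cs u v) := by
  rw [← pr_ev]
  exact pr_pos hv (fun i _ => h i) h0

/-- two chambers whose closures contain `x` -/
theorem facet_unique {u u' : W} {x : B → ℝ} (h : ∀ i, 0 ≤ ev cs u x i)
    (h' : ∀ i, 0 ≤ ev cs u' x i) :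
    u⁻¹ * u' ∈ par cs {i | ev cs u x i = 0} ∧ ev cs u' x = ev cs u x := by
  have h1 : dact cs (u⁻¹ * u')⁻¹ (ev cs u x) = ev cs u' x := by
    rw [← ev_eq_dact, ← ev_mul, mul_inv_cancel_left]
  have h2 : (u⁻¹ * u')⁻¹ ∈ par cs {i | ev cs u x i = 0} :=
    mem_par_of_nonneg h (by rw [h1]; exact h')
  refine ⟨?_, ?_⟩
  · have := inv_mem h2
    rwa [inv_inv] at this
  · rw [← h1]
    exact dact_of_mem_par h2 fun _ ht => ht

/-! ### Finite parabolic subgroups -/

/-- the sum of the positive roots of a finite parabolic subgroup pairs to `2` with its simple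
roots -/
theorem exists_two_rho {T : Set B} (hT : Finite (par cs T)) :
    ∃ v : VSp B, ∀ t ∈ T, form M (Finsupp.single t 1) v = 2 := by
  classical
  set Rs : Set W := {r | cs.IsReflection r ∧ r ∈ par cs T} with hRs
  have hfin : Rs.Finite := Set.Finite.subset (Set.toFinite (par cs T : Set W)) fun r hr => hr.2
  set R := hfin.toFinset with hR
  have hmem : ∀ r, r ∈ R ↔ cs.IsReflection r ∧ r ∈ par cs T := fun r => by
    rw [hR, Set.Finite.mem_toFinset]; rfl
  refine ⟨∑ r ∈ R, root cs r, fun t ht => ?_⟩
  set s := cs.simple t with hs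
  have hsR : s ∈ R := (hmem s).mpr ⟨cs.isReflection_simple t, simple_mem_par ht⟩
  have h1 : act cs s (∑ r ∈ R, root cs r) = ∑ r ∈ R, root cs r - (2 : ℝ) • Finsupp.single t 1 := by
    rw [map_sum, ← Finset.add_sum_erase R _ hsR, ← Finset.add_sum_erase R _ hsR]
    have h2 : ∑ r ∈ R.erase s, act cs s (root cs r) = ∑ r ∈ R.erase s, root cs r := by
      refine Finset.sum_nbij' (fun r => s * r * s⁻¹) (fun r => s⁻¹ * r * s) ?_ ?_ ?_ ?_ ?_
      · intro r hr
        obtain ⟨hne, hr⟩ := Finset.mem_erase.mp hr
        obtain ⟨hr1, hr2⟩ := (hmem r).mp hr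
        refine Finset.mem_erase.mpr ⟨?_, (hmem _).mpr ⟨hr1.conj s, ?_⟩⟩
        · intro h; apply hne
          rw [mul_inv_eq_iff_eq_mul] at h
          exact mul_left_cancel h
        · exact mul_mem (mul_mem (simple_mem_par ht) hr2) (inv_mem (simple_mem_par ht))
      · intro r hr
        obtain ⟨hne, hr⟩ := Finset.mem_erase.mp hr
        obtain ⟨hr1, hr2⟩ := (hmem r).mp hr
        refine Finset.mem_erase.mpr ⟨?_, (hmem _).mpr ⟨?_, ?_⟩⟩
        · intro h; apply hne
          rw [mul_assoc, inv_mul_eq_iff_eq_mul] at h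
          exact mul_right_cancel h
        · have := hr1.conj s⁻¹
          rwa [inv_inv] at this
        · exact mul_mem (mul_mem (inv_mem (simple_mem_par ht)) hr2) (simple_mem_par ht)
      · intro r _; group
      · intro r _; group
      · intro r hr
        obtain ⟨hne, hr⟩ := Finset.mem_erase.mp hr
        obtain ⟨hr1, hr2⟩ := (hmem r).mp hr
        apply act_root_of_lt hr1
        have hodd := cs.length_mul_mod_two s r
        have e1 : cs.length s = 1 := cs.length_simple t
        have e2 := hr1.odd_length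
        rw [e1] at hodd ⊢
        obtain ⟨k, hk⟩ := e2
        by_contra hcon
        have h0 : cs.length (s * r) = 0 := by omega
        rw [cs.length_eq_zero_iff] at h0
        apply hne
        have h3 : s⁻¹ = r := inv_eq_of_mul_eq_one_right h0
        rw [← h3, hs, cs.inv_simple]
    rw [h2, hs, root_simple, act_simple_self, two_smul]
    abel
  rw [hs, act_simple] at h1
  have h2 := sub_right_injective h1
  have h3 := congrArg (fun v => v t) h2
  simpa using h3

/-- a finite parabolic subgroup moves every functional into its closed chamber -/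
theorem exists_dominant {T : Set B} (hT : Finite (par cs T)) (z : B → ℝ) :
    ∃ w ∈ par cs T, ∀ t ∈ T, 0 ≤ ev cs w z t := by
  obtain ⟨v, hv⟩ := exists_two_rho hT
  obtain ⟨w, hw⟩ := Finite.exists_max (fun w : par cs T => pr z (act cs (w : W) v))
  refine ⟨w, w.2, fun t ht => ?_⟩
  have h1 := hw ⟨(w : W) * cs.simple t, mul_mem w.2 (simple_mem_par ht)⟩
  simp only [act_mul_apply, act_simple, hv t ht, map_sub, map_smul, smul_eq_mul] at h1
  rw [ev]
  linarith

/-! ### Open stars -/

/-- the open star of the facet `u C_T` -/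
def star (cs : CoxeterSystem M W) (u : W) (T : Set B) : Set (B → ℝ) :=
  {x | ∀ v ∈ par cs T, ∀ s ∉ T, 0 < ev cs (u * v) x s}

/-- the Tits cone: the union of the closed chambers -/
def titsCone (cs : CoxeterSystem M W) : Set (B → ℝ) :=
  {x | ∃ u : W, ∀ i, 0 ≤ ev cs u x i}

theorem mem_titsCone_iff (x : B → ℝ) : x ∈ titsCone cs ↔ ∃ w : W, ∀ i, 0 ≤ dact cs w x i := by
  constructor
  · rintro ⟨u, hu⟩
    exact ⟨u⁻¹, fun i => by rw [← ev_eq_dact]; exact hu i⟩
  · rintro ⟨w, hw⟩
    exact ⟨w⁻¹, fun i => by rw [ev_eq_dact, inv_inv]; exact hw i⟩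

theorem act_single_self_of_notMem {T : Set B} {w : W} (hw : w ∈ par cs T) {s : B} (hs : s ∉ T) :
    act cs w (Finsupp.single s 1) s = 1 := by
  rw [act_apply_of_mem_par hw _ hs, Finsupp.single_eq_same]

/-- values of a dominant functional on `w e_s`, `w ∈ W_T`, `s ∉ T` -/
theorem le_ev_of_mem_par {T : Set B} {w : W} (hw : w ∈ par cs T) {s : B} (hs : s ∉ T)
    {c : B → ℝ} (hc : ∀ i, 0 ≤ c i) : c s ≤ ev cs w c s := by
  have h1 : NN (act cs w (Finsupp.single s 1) - Finsupp.single s 1) := by
    intro i
    rw [Finsupp.sub_apply]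
    by_cases hi : i = s
    · subst hi
      rw [act_single_self_of_notMem hw hs, Finsupp.single_eq_same, sub_self]
    · rw [Finsupp.single_eq_of_ne hi, sub_zero]
      exact act_single_NN_of_notMem hw hs i
  have h2 := pr_nonneg hc h1
  rw [map_sub, pr_e] at h2
  rw [ev]; linarith

theorem mem_star_iff {T : Set B} (hT : Finite (par cs T)) {u : W} {x : B → ℝ} :
    x ∈ star cs u T ↔
      ∃ v ∈ par cs T, (∀ i, 0 ≤ ev cs (u * v) x i) ∧ ∀ s ∉ T, 0 < ev cs (u * v) x s := by
  constructor
  · intro hx
    obtain ⟨w, hw, h1⟩ := exists_dominant hT (ev cs u x)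
    refine ⟨w, hw, fun i => ?_, fun s hs => hx w hw s hs⟩
    by_cases hi : i ∈ T
    · rw [ev_mul]; exact h1 i hi
    · exact (hx w hw i hi).le
  · rintro ⟨v, hv, h1, h2⟩ v' hv' s hs
    have e : u * v' = u * v * (v⁻¹ * v') := by group
    rw [e, ev_mul]
    exact (h2 s hs).trans_le (le_ev_of_mem_par (mul_mem (inv_mem hv) hv') hs h1)

theorem star_subset_titsCone {T : Set B} (hT : Finite (par cs T)) (u : W) :
    star cs u T ⊆ titsCone cs := fun x hx => by
  obtain ⟨v, _, h, _⟩ := (mem_star_iff hT).mp hx
  exact ⟨u * v, h⟩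

theorem continuous_pr (v : VSp B) : Continuous fun x : B → ℝ => pr x v := by
  simp only [pr, Finsupp.linearCombination_apply, Finsupp.sum]
  fun_prop

theorem continuous_ev (u : W) : Continuous fun x : B → ℝ => ev cs u x :=
  continuous_pi fun i => continuous_pr _

theorem continuous_dact (u : W) : Continuous fun x : B → ℝ => dact cs u x :=
  continuous_pi fun i => continuous_pr _

theorem isOpen_star [Finite B] {T : Set B} (hT : Finite (par cs T)) (u : W) :
    IsOpen (star cs u T) := by
  have h : star cs u T = ⋂ v : par cs T, ⋂ s : (Tᶜ : Set B),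
      {x | 0 < ev cs (u * v) x s} := by
    ext x
    simp only [star, Set.mem_setOf_eq, Set.mem_iInter, Subtype.forall, Set.mem_compl_iff]
  rw [h]
  refine isOpen_iInter_of_finite fun v => isOpen_iInter_of_finite fun s => ?_
  exact isOpen_lt continuous_const (continuous_pr _)

/-! ### The interior of the Tits cone -/

theorem finite_length_le [Finite B] (n : ℕ) : {w : W | cs.length w ≤ n}.Finite := by
  refine ((List.finite_length_le B n).image cs.wordProd).subset fun w hw => ?_
  obtain ⟨l, hl, rfl⟩ := cs.exists_isReduced w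
  refine ⟨l, ?_, rfl⟩
  have : cs.length (cs.wordProd l) = l.length := hl
  simp only [Set.mem_setOf_eq] at hw ⊢
  omega

/-- if one element inverts all positive roots of `W_T` then `W_T` is finite -/
theorem finite_par_of_neg [Finite B] {T : Set B} (w : W)
    (h : ∀ u ∈ par cs T, ∀ t ∈ T, NN (act cs u (Finsupp.single t 1)) →
      ¬ NN (act cs (w * u) (Finsupp.single t 1))) : Finite (par cs T) := by
  have key : ∀ n, ∀ u ∈ par cs T, cs.length u = n → cs.length (w * u) + cs.length u =
      cs.length w := by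
    intro n
    induction n with
    | zero =>
      intro u _ hu
      rw [hu]
      rw [cs.length_eq_zero_iff] at hu
      rw [hu, mul_one, add_zero]
    | succ n ih =>
      intro u hu hn
      have hu1 : u ≠ 1 := by rintro rfl; simp at hn
      obtain ⟨j, hj, hl, hm⟩ := exists_rightDescent_par hu hu1
      have h1 := ih (u * cs.simple j) hm (by omega)
      have h2 : NN (act cs (u * cs.simple j) (Finsupp.single j 1)) :=
        act_single_NN _ _ j rfl (by rw [cs.simple_mul_simple_cancel_right]; omega)
      have h3 := h (u * cs.simple j) hm j hj h2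
      have h4 : ¬ cs.length (w * (u * cs.simple j)) <
          cs.length (w * (u * cs.simple j) * cs.simple j) := fun h5 =>
        h3 (act_single_NN _ _ j rfl h5)
      rw [← mul_assoc, cs.simple_mul_simple_cancel_right] at h4
      rcases cs.length_mul_simple (w * u) j with h5 | h5
      · rw [← mul_assoc] at h1; omega
      · rw [← mul_assoc] at h1; omega
  have : (par cs T : Set W).Finite := (finite_length_le (cs := cs) (cs.length w)).subset
    fun u hu => by
      have := key _ u hu rfl
      simp only [Set.mem_setOf_eq]; omega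
  exact this.to_subtype

/-- the set of zeros of a functional in the interior of the Tits cone is spherical -/
theorem finite_par_of_mem_interior [Finite B] {x : B → ℝ} (hx : x ∈ interior (titsCone cs))
    {u : W} (hu : ∀ i, 0 ≤ ev cs u x i) : Finite (par cs {i | ev cs u x i = 0}) := by
  set T : Set B := {i | ev cs u x i = 0} with hT
  set c := ev cs u x with hc
  -- move a little away from the chamber `u C`
  have hcont : Continuous fun ε : ℝ => dact cs u (c - ε • (1 : B → ℝ)) :=
    (continuous_dact u).comp (by fun_prop)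
  have h0 : (fun ε : ℝ => dact cs u (c - ε • (1 : B → ℝ))) 0 ∈ interior (titsCone cs) := by
    simp only [zero_smul, sub_zero]
    rw [hc, dact_ev_self]; exact hx
  have h1 : ∀ᶠ ε in nhds (0 : ℝ), dact cs u (c - ε • (1 : B → ℝ)) ∈ interior (titsCone cs) :=
    hcont.continuousAt.eventually_mem (isOpen_interior.mem_nhds h0)
  obtain ⟨ε, hε0, hε⟩ : ∃ ε : ℝ, 0 < ε ∧
      dact cs u (c - ε • (1 : B → ℝ)) ∈ interior (titsCone cs) := by
    have h2 := h1.filter_mono (nhdsWithin_le_nhds (s := Set.Ioi (0 : ℝ)))
    have h3 : ∀ᶠ ε in nhdsWithin (0 : ℝ) (Set.Ioi 0), (0 : ℝ) < ε :=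
      eventually_nhdsWithin_of_forall fun _ h => h
    obtain ⟨ε, h4, h5⟩ := (h3.and h2).exists
    exact ⟨ε, h4, h5⟩
  obtain ⟨w, hw⟩ := interior_subset hε
  apply finite_par_of_neg (w⁻¹ * u)
  intro g hg t ht hpos hcon
  -- value on the positive root `g e_t`
  have e1 : pr (c - ε • (1 : B → ℝ)) (act cs g (Finsupp.single t 1)) < 0 := by
    have e2 : pr (c - ε • (1 : B → ℝ)) (act cs g (Finsupp.single t 1)) =
        pr c (act cs g (Finsupp.single t 1)) -
          ε * pr (1 : B → ℝ) (act cs g (Finsupp.single t 1)) := by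
      have : c = (c - ε • (1 : B → ℝ)) + ε • (1 : B → ℝ) := by abel
      conv_rhs => rw [this]
      rw [pr_add, pr_smul]; ring
    have e3 : pr c (act cs g (Finsupp.single t 1)) = 0 := by
      rw [pr_act_of_mem_par hg (fun i hi => hi), pr_e]; exact ht
    have e4 : 0 < pr (1 : B → ℝ) (act cs g (Finsupp.single t 1)) := by
      refine pr_pos hpos (fun i _ => by simp) ?_
      intro h
      have := congrArg (act cs g⁻¹) h
      rw [act_inv_apply_self, map_zero] at this
      have := congrArg (fun v => v t) this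
      simp at this
    rw [e2, e3]
    nlinarith
  have e2 : pr (c - ε • (1 : B → ℝ)) (act cs g (Finsupp.single t 1)) =
      pr (ev cs w (dact cs u (c - ε • (1 : B → ℝ))))
        (act cs (w⁻¹ * u * g) (Finsupp.single t 1)) := by
    rw [pr_ev, ← act_mul_apply, pr_dact, ← act_mul_apply]
    congr 3
    group
  rw [e2] at e1
  exact absurd (pr_nonneg hw hcon) (not_le.mpr e1)

/-- the interior of the Tits cone is the union of the open stars of the spherical facets -/
theorem interior_titsCone [Finite B] :
    interior (titsCone cs) = ⋃ (u : W) (T : Set B) (_ : Finite (par cs T)), star cs u T := by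
  apply Set.Subset.antisymm
  · intro x hx
    obtain ⟨u, hu⟩ := interior_subset hx
    have hfin := finite_par_of_mem_interior hx hu
    simp only [Set.mem_iUnion]
    refine ⟨u, _, hfin, (mem_star_iff hfin).mpr ⟨1, one_mem _, ?_, ?_⟩⟩
    · rw [mul_one]; exact hu
    · intro s hs
      rw [mul_one]
      exact lt_of_le_of_ne (hu s) (Ne.symm hs)
  · refine Set.iUnion_subset fun u => Set.iUnion_subset fun T => Set.iUnion_subset fun hT => ?_
    exact interior_maximal (star_subset_titsCone hT u) (isOpen_star hT u)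

end Vale.Agent.P203.Tits
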