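import Vale.Agent.P203.Tits.Cone
import Mathlib.Analysis.Convex.Star

/-! P203, block TITS, part 3: the complement `Y` of the complexified reflection hyperplanes over
the interior of the Tits cone, its strata `(u, T)` and the star-shaped open charts. -/

set_option linter.all false

namespace Vale.Agent.P203.Tits

open Vale.Agent.P203.Cox

variable {B : Type*} {W : Type*} [Group W] {M : CoxeterMatrix B} {cs : CoxeterSystem M W}

/-- the stratum `(u, T)`: points `(x, y)` with `x` in the facet `u C_T` and `y` on the side of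
`u C` for all hyperplanes through `x` -/
def stratum (cs : CoxeterSystem M W) (u : W) (T : Set B) : Set ((B → ℝ) × (B → ℝ)) :=
  {p | (∀ s ∈ T, ev cs u p.1 s = 0 ∧ 0 < ev cs u p.2 s) ∧ ∀ s ∉ T, 0 < ev cs u p.1 s}

/-- the open chart `(u, T)`: points `(x, y)` with `x` in the open star of the facet `u C_T` and
`y` on the side of `u C` for all hyperplanes through `x` -/
def chart (cs : CoxeterSystem M W) (u : W) (T : Set B) : Set ((B → ℝ) × (B → ℝ)) :=
  {p | p.1 ∈ star cs u T ∧ ∀ r, cs.IsReflection r → r ∈ par cs T →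
    pr p.1 (act cs u (root cs r)) ≠ 0 ∨ 0 < pr p.2 (act cs u (root cs r))}

/-- the complement of the complexified reflection hyperplanes over the interior of the Tits
cone, as pairs (real part, imaginary part) -/
def Y (cs : CoxeterSystem M W) : Set ((B → ℝ) × (B → ℝ)) :=
  {p | p.1 ∈ interior (titsCone cs) ∧ ∀ r, cs.IsReflection r →
    pr p.1 (root cs r) ≠ 0 ∨ pr p.2 (root cs r) ≠ 0}

/-- the order of cells: `(u', T') ≤ (u, T)` -/
def cle (cs : CoxeterSystem M W) (u' : W) (T' : Set B) (u : W) (T : Set B) : Prop :=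
  T' ⊆ T ∧ u⁻¹ * u' ∈ par cs T ∧
    ∀ s ∈ T', cs.length (u⁻¹ * u') < cs.length (u⁻¹ * u' * cs.simple s)

/-! ### Roots and reflections -/

theorem lt_iff_NN {g : W} {s : B} : cs.length g < cs.length (g * cs.simple s) ↔
    NN (act cs g (Finsupp.single s 1)) := by
  refine ⟨act_single_NN _ g s rfl, fun h => ?_⟩
  by_contra hcon
  have h1 : cs.length (g * cs.simple s) < cs.length g := by
    rcases cs.length_mul_simple g s with h | h <;> omega
  rw [act_single_desc h1] at h
  exact root_ne_zero (isRefl_conj_simple g s) (eq_zero_of_NN (root_NN _) h)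

/-- a reflection `r` fixes `x` iff the root of `r` vanishes at `x` -/
theorem dact_reflection {r : W} (hr : cs.IsReflection r) (x : B → ℝ) :
    dact cs r x = x ↔ pr x (root cs r) = 0 := by
  constructor
  · intro h
    have h1 : pr (dact cs r x) (root cs r) = pr x (root cs r) := by rw [h]
    rw [pr_dact, hr.inv, act_root_self hr, map_neg] at h1
    linarith
  · intro h
    refine pr_ext fun v => ?_
    rw [pr_dact, hr.inv, act_reflection hr, map_sub, map_smul, h, smul_zero, sub_zero]

theorem mem_Y_iff (p : (B → ℝ) × (B → ℝ)) : p ∈ Y cs ↔ p.1 ∈ interior (titsCone cs) ∧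
    ∀ r, cs.IsReflection r → ¬ (dact cs r p.1 = p.1 ∧ dact cs r p.2 = p.2) := by
  simp only [Y, Set.mem_setOf_eq]
  refine and_congr_right fun _ => forall_congr' fun r => forall_congr' fun hr => ?_
  rw [dact_reflection hr, dact_reflection hr]
  tauto

theorem NN_act_of_support {g : W} {v : VSp B} (hv : NN v)
    (h : ∀ i, v i ≠ 0 → NN (act cs g (Finsupp.single i 1))) : NN (act cs g v) := by
  intro j
  have h1 : act cs g v = v.sum fun i a => a • act cs g (Finsupp.single i 1) := by
    conv_lhs => rw [← Finsupp.sum_single v]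
    rw [Finsupp.sum, map_sum, Finsupp.sum]
    refine Finset.sum_congr rfl fun i _ => ?_
    rw [← map_smul, Finsupp.smul_single_one]
  rw [h1, Finsupp.sum, Finsupp.finset_sum_apply]
  refine Finset.sum_nonneg fun i hi => ?_
  rw [Finsupp.smul_apply, smul_eq_mul]
  exact mul_nonneg (hv i) (h i (Finsupp.mem_support_iff.mp hi) j)

/-- if the chamber `u C` has `x` in its closure and `y` on its side then no root vanishes at
both `x` and `y`, and the positive ones (relative to `u`) vanishing at `x` are positive at `y` -/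
theorem stratum_root {u : W} {T : Set B} {p : (B → ℝ) × (B → ℝ)} (hp : p ∈ stratum cs u T)
    {v : VSp B} (hv : NN v) (hv0 : v ≠ 0) (h : pr (ev cs u p.1) v = 0) :
    (∀ i, v i ≠ 0 → i ∈ T) ∧ 0 < pr (ev cs u p.2) v := by
  have hnn : ∀ i, 0 ≤ ev cs u p.1 i := fun i => by
    by_cases hi : i ∈ T
    · rw [(hp.1 i hi).1]
    · exact (hp.2 i hi).le
  have h1 : ∀ i, v i ≠ 0 → i ∈ T := by
    intro i hi
    by_contra hiT
    exact hi (pr_eq_zero hnn hv h i (hp.2 i hiT).ne')
  exact ⟨h1, pr_pos hv (fun i hi => (hp.1 i (h1 i hi)).2) hv0⟩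

theorem stratum_nonneg {u : W} {T : Set B} {p : (B → ℝ) × (B → ℝ)} (hp : p ∈ stratum cs u T)
    (i : B) : 0 ≤ ev cs u p.1 i := by
  by_cases hi : i ∈ T
  · rw [(hp.1 i hi).1]
  · exact (hp.2 i hi).le

theorem stratum_zero {u : W} {T : Set B} {p : (B → ℝ) × (B → ℝ)} (hp : p ∈ stratum cs u T) :
    {i | ev cs u p.1 i = 0} = T := by
  ext i
  constructor
  · intro h
    by_contra hi
    exact (hp.2 i hi).ne' h
  · intro hi
    exact (hp.1 i hi).1

/-! ### Uniqueness and existence of the stratum -/

theorem stratum_unique {u u' : W} {T T' : Set B} {p : (B → ℝ) × (B → ℝ)}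
    (hp : p ∈ stratum cs u T) (hp' : p ∈ stratum cs u' T') : u = u' ∧ T = T' := by
  obtain ⟨h1, h2⟩ := facet_unique (stratum_nonneg hp) (stratum_nonneg hp')
  have hTT : T = T' := by
    rw [← stratum_zero hp, ← stratum_zero hp', h2]
  refine ⟨?_, hTT⟩
  rw [stratum_zero hp] at h1
  by_contra hne
  have h3 : u⁻¹ * u' ≠ 1 := fun h => hne (inv_mul_eq_one.mp h)
  obtain ⟨j, hj, hl, -⟩ := exists_rightDescent_par h1 h3
  have h4 : act cs (u⁻¹ * u') (Finsupp.single j 1) =
      - root cs (u⁻¹ * u' * cs.simple j * (u⁻¹ * u')⁻¹) := act_single_desc (by omega)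
  set r := u⁻¹ * u' * cs.simple j * (u⁻¹ * u')⁻¹ with hr
  have hrr : cs.IsReflection r := isRefl_conj_simple _ _
  have hrT : r ∈ par cs T := mul_mem (mul_mem h1 (simple_mem_par hj)) (inv_mem h1)
  have h5 : 0 < pr (ev cs u p.2) (root cs r) := by
    refine pr_pos (root_NN r) (fun i hi => ?_) (root_ne_zero hrr)
    by_cases hiT : i ∈ T
    · exact (hp.1 i hiT).2
    · exact absurd (root_apply_of_mem_par hrr hrT hiT) hi
  have h6 : ev cs u' p.2 j = - pr (ev cs u p.2) (root cs r) := by
    have e : u' = u * (u⁻¹ * u') := by group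
    rw [e, ev_mul, ev, h4, map_neg]
  have h7 := (hp'.1 j (hTT ▸ hj)).2
  linarith

/-- adjusting the chamber inside the star so that `y` is on its side -/
theorem exists_adjust {T : Set B} (hT : Finite (par cs T)) {u : W} {x y : B → ℝ}
    (hx : ∀ i, 0 ≤ ev cs u x i) (hz : {i | ev cs u x i = 0} = T) :
    ∃ v ∈ par cs T, ev cs (u * v) x = ev cs u x ∧ ∀ s ∈ T, 0 ≤ ev cs (u * v) y s := by
  obtain ⟨v, hv, h1⟩ := exists_dominant hT (ev cs u y)
  refine ⟨v, hv, ?_, fun s hs => by rw [ev_mul]; exact h1 s hs⟩
  rw [ev_mul, ev_eq_dact v]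
  exact dact_of_mem_par (inv_mem hv) fun t ht => by rw [← hz] at ht; exact ht

theorem exists_stratum [Finite B] {p : (B → ℝ) × (B → ℝ)} (hp : p ∈ Y cs) :
    ∃ u T, Finite (par cs T) ∧ p ∈ stratum cs u T := by
  obtain ⟨u₀, hu₀⟩ := interior_subset hp.1
  have hfin := finite_par_of_mem_interior hp.1 hu₀
  obtain ⟨v, hv, h1, h2⟩ := exists_adjust (y := p.2) hfin hu₀ rfl
  refine ⟨u₀ * v, _, hfin, fun s hs => ⟨?_, ?_⟩, fun s hs => ?_⟩
  · rw [h1]; exact hs
  · refine lt_of_le_of_ne (h2 s hs) (Ne.symm fun h0 => ?_)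
    have hr := isRefl_conj_simple (cs := cs) (u₀ * v) s
    have h3 := hp.2 _ hr
    have h4 : pr p.1 (act cs (u₀ * v) (Finsupp.single s 1)) = 0 := by
      have : ev cs (u₀ * v) p.1 s = 0 := by rw [h1]; exact hs
      exact this
    have h5 : pr p.2 (act cs (u₀ * v) (Finsupp.single s 1)) = 0 := h0
    rcases act_single_eq_or (cs := cs) (w := u₀ * v) (i := s) with h | h
    · rw [h] at h4 h5
      rcases h3 with h3 | h3
      · exact h3 h4
      · exact h3 h5
    · rw [h, map_neg, neg_eq_zero] at h4 h5
      rcases h3 with h3 | h3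
      · exact h3 h4
      · exact h3 h5
  · rw [h1]
    exact lt_of_le_of_ne (hu₀ s) (Ne.symm hs)

/-! ### Charts are unions of strata -/

theorem mem_chart_iff {T : Set B} (hT : Finite (par cs T)) {u : W} {p : (B → ℝ) × (B → ℝ)} :
    p ∈ chart cs u T ↔ ∃ u' T', cle cs u' T' u T ∧ p ∈ stratum cs u' T' := by
  constructor
  · rintro ⟨hx, hy⟩
    obtain ⟨v, hv, h1, h2⟩ := (mem_star_iff hT).mp hx
    set T' : Set B := {i | ev cs (u * v) p.1 i = 0} with hT'
    have hsub : T' ⊆ T := fun i hi => by
      by_contra hiT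
      exact (h2 i hiT).ne' hi
    have hT'fin : Finite (par cs T') :=
      Set.Finite.subset (Set.toFinite (par cs T : Set W)) (par_mono hsub)
    obtain ⟨v', hv', h3, h4⟩ := exists_adjust (y := p.2) hT'fin h1 rfl
    have hg : u⁻¹ * (u * v * v') ∈ par cs T := by
      have e : u⁻¹ * (u * v * v') = v * v' := by group
      rw [e]
      exact mul_mem hv (par_mono hsub hv')
    set g := u⁻¹ * (u * v * v') with hgdef
    have hug : u * v * v' = u * g := by rw [hgdef]; group
    have key : ∀ s ∈ T', NN (act cs g (Finsupp.single s 1)) ∧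
        0 < ev cs (u * v * v') p.2 s := by
      intro s hs
      have hrr := isRefl_conj_simple (cs := cs) g s
      have hrT : g * cs.simple s * g⁻¹ ∈ par cs T :=
        mul_mem (mul_mem hg (simple_mem_par (hsub hs))) (inv_mem hg)
      have h5 := hy _ hrr hrT
      have h6 : pr p.1 (act cs u (act cs g (Finsupp.single s 1))) = 0 := by
        rw [← act_mul_apply, ← hug]
        have : ev cs (u * v * v') p.1 s = 0 := by rw [h3]; exact hs
        exact this
      have h7 : pr p.2 (act cs u (act cs g (Finsupp.single s 1))) =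
          ev cs (u * v * v') p.2 s := by
        rw [← act_mul_apply, ← hug]; rfl
      have h8 := h4 s hs
      rcases act_single_eq_or (cs := cs) (w := g) (i := s) with h | h
      · rw [h] at h6 h7 ⊢
        refine ⟨root_NN _, ?_⟩
        rw [← h7]
        exact h5.resolve_left fun hne => hne h6
      · exfalso
        rw [h, map_neg, map_neg, neg_eq_zero] at h6
        rw [h, map_neg, map_neg] at h7
        have h9 := h5.resolve_left fun hne => hne h6
        linarith
    refine ⟨u * v * v', T', ⟨hsub, hg, fun s hs => lt_iff_NN.mpr (key s hs).1⟩, ?_, ?_⟩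
    · intro s hs
      refine ⟨by rw [h3]; exact hs, (key s hs).2⟩
    · intro s hs
      rw [h3]
      exact lt_of_le_of_ne (h1 s) (Ne.symm hs)
  · rintro ⟨u', T', ⟨hsub, hg, hl⟩, hp⟩
    set g := u⁻¹ * u' with hgdef
    have hug : u' = u * g := by rw [hgdef]; group
    refine ⟨(mem_star_iff hT).mpr ⟨g, hg, ?_, ?_⟩, ?_⟩
    · rw [← hug]; exact stratum_nonneg hp
    · intro s hs
      rw [← hug]
      exact hp.2 s fun h => hs (hsub h)
    · intro r hr hrT
      rw [or_iff_not_imp_left, not_not]
      intro h0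
      -- the root `g⁻¹ root r`
      have hr' : cs.IsReflection (g⁻¹ * r * g) := by
        have := hr.conj g⁻¹
        rwa [inv_inv] at this
      have e1 : ∀ q : B → ℝ, pr q (act cs u (root cs r)) =
          pr (ev cs u' q) (act cs g⁻¹ (root cs r)) := fun q => by
        rw [pr_ev, hug, act_mul_apply, act_self_inv_apply]
      have e2 := act_root_eq_or (cs := cs) g⁻¹ hr
      rw [inv_inv] at e2
      have h1 : pr (ev cs u' p.1) (root cs (g⁻¹ * r * g)) = 0 := by
        rw [e1] at h0
        rcases e2 with e2 | e2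
        · rw [e2] at h0; exact h0
        · rw [e2, map_neg, neg_eq_zero] at h0; exact h0
      obtain ⟨h2, h3⟩ := stratum_root hp (root_NN _) (root_ne_zero hr') h1
      have h4 : NN (act cs g (root cs (g⁻¹ * r * g))) :=
        NN_act_of_support (root_NN _) fun i hi => lt_iff_NN.mp (hl i (h2 i hi))
      rcases e2 with e2 | e2
      · rw [e1, e2]; exact h3
      · exfalso
        have h5 : act cs g (root cs (g⁻¹ * r * g)) = - root cs r := by
          have := congrArg (act cs g) e2
          rw [act_self_inv_apply, map_neg] at this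
          rw [this, neg_neg]
        rw [h5] at h4
        exact root_ne_zero hr (eq_zero_of_NN (root_NN _) h4)

theorem cle_refl (u : W) (T : Set B) : cle cs u T u T := by
  refine ⟨subset_rfl, by rw [inv_mul_cancel]; exact one_mem _, fun s _ => ?_⟩
  rw [inv_mul_cancel, one_mul, cs.length_one, cs.length_simple]
  exact one_pos

theorem stratum_subset_chart {T : Set B} (hT : Finite (par cs T)) (u : W) :
    stratum cs u T ⊆ chart cs u T := fun p hp =>
  (mem_chart_iff hT).mpr ⟨u, T, cle_refl u T, hp⟩

theorem mem_Y_of_stratum [Finite B] {T : Set B} (hT : Finite (par cs T)) {u : W}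
    {p : (B → ℝ) × (B → ℝ)} (hp : p ∈ stratum cs u T) : p ∈ Y cs := by
  refine ⟨?_, fun r hr => ?_⟩
  · rw [interior_titsCone]
    simp only [Set.mem_iUnion]
    exact ⟨u, T, hT, (stratum_subset_chart hT u hp).1⟩
  · rw [or_iff_not_imp_left, not_not]
    intro h0
    have hr' : cs.IsReflection (u⁻¹ * r * u) := by
      have := hr.conj u⁻¹
      rwa [inv_inv] at this
    have e1 : ∀ q : B → ℝ, pr q (root cs r) =
        pr (ev cs u q) (act cs u⁻¹ (root cs r)) := fun q => by
      rw [pr_ev, act_self_inv_apply]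
    have e2 := act_root_eq_or (cs := cs) u⁻¹ hr
    rw [inv_inv] at e2
    rw [e1] at h0 ⊢
    rcases e2 with e2 | e2
    · rw [e2] at h0 ⊢
      exact (stratum_root hp (root_NN _) (root_ne_zero hr') h0).2.ne'
    · rw [e2, map_neg, neg_eq_zero] at h0
      rw [e2, map_neg]
      exact neg_ne_zero.mpr (stratum_root hp (root_NN _) (root_ne_zero hr') h0).2.ne'

theorem cle_finite {u u' : W} {T T' : Set B} (h : cle cs u' T' u T) (hT : Finite (par cs T)) :
    Finite (par cs T') :=
  Set.Finite.subset (Set.toFinite (par cs T : Set W)) (par_mono h.1)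

theorem chart_subset_Y [Finite B] {T : Set B} (hT : Finite (par cs T)) (u : W) :
    chart cs u T ⊆ Y cs := fun p hp => by
  obtain ⟨u', T', h1, h2⟩ := (mem_chart_iff hT).mp hp
  exact mem_Y_of_stratum (cle_finite h1 hT) h2

theorem Y_eq_iUnion_chart [Finite B] :
    Y cs = ⋃ (u : W) (T : Set B) (_ : Finite (par cs T)), chart cs u T := by
  apply Set.Subset.antisymm
  · intro p hp
    obtain ⟨u, T, hT, h⟩ := exists_stratum hp
    simp only [Set.mem_iUnion]
    exact ⟨u, T, hT, stratum_subset_chart hT u h⟩
  · exact Set.iUnion_subset fun u => Set.iUnion_subset fun T => Set.iUnion_subset fun hT =>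
      chart_subset_Y hT u

/-! ### Charts are open and star-shaped -/

theorem isOpen_chart [Finite B] {T : Set B} (hT : Finite (par cs T)) (u : W) :
    IsOpen (chart cs u T) := by
  have h : chart cs u T = (Prod.fst ⁻¹' star cs u T) ∩ ⋂ r : par cs T,
      {p | cs.IsReflection (r : W) → pr p.1 (act cs u (root cs r)) ≠ 0 ∨
        0 < pr p.2 (act cs u (root cs r))} := by
    ext p
    simp only [chart, Set.mem_setOf_eq, Set.mem_inter_iff, Set.mem_preimage, Set.mem_iInter,
      Subtype.forall]
    refine and_congr_right fun _ => ?_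
    constructor
    · intro h r hr hr'; exact h r hr' hr
    · intro h r hr hr'; exact h r hr' hr
  rw [h]
  refine ((isOpen_star hT u).preimage continuous_fst).inter (isOpen_iInter_of_finite fun r => ?_)
  by_cases hr : cs.IsReflection (r : W)
  · have : {p : (B → ℝ) × (B → ℝ) | cs.IsReflection (r : W) →
        pr p.1 (act cs u (root cs r)) ≠ 0 ∨ 0 < pr p.2 (act cs u (root cs r))} =
        {p | pr p.1 (act cs u (root cs r)) ≠ 0} ∪ {p | 0 < pr p.2 (act cs u (root cs r))} := by
      ext p; simp [hr]
    rw [this]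
    refine IsOpen.union ?_ ?_
    · exact isOpen_ne_fun ((continuous_pr _).comp continuous_fst) continuous_const
    · exact isOpen_lt continuous_const ((continuous_pr _).comp continuous_snd)
  · have : {p : (B → ℝ) × (B → ℝ) | cs.IsReflection (r : W) →
        pr p.1 (act cs u (root cs r)) ≠ 0 ∨ 0 < pr p.2 (act cs u (root cs r))} = Set.univ := by
      ext p; simp [hr]
    rw [this]; exact isOpen_univ

theorem isOpen_Y [Finite B] : IsOpen (Y cs) := by
  rw [Y_eq_iUnion_chart]
  exact isOpen_iUnion fun u => isOpen_iUnion fun T => isOpen_iUnion fun hT => isOpen_chart hT u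

theorem starConvex_chart {T : Set B} (hT : Finite (par cs T)) {u : W}
    {p₀ : (B → ℝ) × (B → ℝ)} (h₀ : p₀ ∈ stratum cs u T) :
    StarConvex ℝ p₀ (chart cs u T) := by
  intro p hp a b ha hb hab
  have hc₀ := stratum_subset_chart hT u h₀
  refine ⟨fun v hv s hs => ?_, fun r hr hrT => ?_⟩
  · have h1 := hc₀.1 v hv s hs
    have h2 := hp.1 v hv s hs
    have e : ev cs (u * v) (a • p₀ + b • p).1 s =
        a * ev cs (u * v) p₀.1 s + b * ev cs (u * v) p.1 s := by
      rw [Prod.fst_add, Prod.smul_fst, Prod.smul_fst, ev_add, ev_smul, ev_smul]; rfl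
    rw [e]
    rcases ha.eq_or_lt with h3 | h3
    · have hb1 : b = 1 := by linarith
      rw [← h3, hb1]; linarith
    · nlinarith [mul_pos h3 h1, mul_nonneg hb h2.le]
  · have e : ∀ q q' : B → ℝ, pr (a • q + b • q') (act cs u (root cs r)) =
        a * pr q (act cs u (root cs r)) + b * pr q' (act cs u (root cs r)) := fun q q' => by
      rw [pr_add, pr_smul, pr_smul]
    have e1 : (a • p₀ + b • p).1 = a • p₀.1 + b • p.1 := rfl
    have e2 : (a • p₀ + b • p).2 = a • p₀.2 + b • p.2 := rfl
    rw [e1, e2, e, e]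
    -- the root vanishes at `x₀` and is positive at `y₀`
    have h1 : pr p₀.1 (act cs u (root cs r)) = 0 := by
      rw [← pr_ev]
      have : pr (ev cs u p₀.1) (root cs r) = pr (0 : B → ℝ) (root cs r) := by
        refine pr_congr fun i hi => ?_
        by_cases hiT : i ∈ T
        · rw [(h₀.1 i hiT).1]; rfl
        · exact absurd (root_apply_of_mem_par hr hrT hiT) hi
      rw [this]
      have := pr_smul (0 : ℝ) (0 : B → ℝ) (root cs r)
      simpa using this
    have h2 : 0 < pr p₀.2 (act cs u (root cs r)) := by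
      rw [← pr_ev]
      refine pr_pos (root_NN r) (fun i hi => ?_) (root_ne_zero hr)
      by_cases hiT : i ∈ T
      · exact (h₀.1 i hiT).2
      · exact absurd (root_apply_of_mem_par hr hrT hiT) hi
    rw [h1, mul_zero, zero_add]
    rcases hb.eq_or_lt with h3 | h3
    · right
      have ha1 : a = 1 := by linarith
      rw [← h3, ha1]; linarith
    · rcases hp.2 r hr hrT with h4 | h4
      · left
        exact mul_ne_zero h3.ne' h4
      · right
        have := mul_nonneg ha h2.le
        have := mul_pos h3 h4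
        linarith

open Classical in
/-- the base point of the stratum `(u, T)` -/
noncomputable def center (cs : CoxeterSystem M W) (u : W) (T : Set B) : (B → ℝ) × (B → ℝ) :=
  (dact cs u (fun i => if i ∈ T then 0 else 1), dact cs u (fun _ => 1))

theorem center_mem_stratum (u : W) (T : Set B) : center cs u T ∈ stratum cs u T := by
  refine ⟨fun s hs => ⟨?_, ?_⟩, fun s hs => ?_⟩
  · simp only [center]; rw [ev_dact_self, if_pos hs]
  · simp only [center]; rw [ev_dact_self]; exact one_pos
  · simp only [center]; rw [ev_dact_self, if_neg hs]; exact one_pos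

theorem center_mem_chart {T : Set B} (hT : Finite (par cs T)) (u : W) :
    center cs u T ∈ chart cs u T := stratum_subset_chart hT u (center_mem_stratum u T)

theorem starConvex_chart_center {T : Set B} (hT : Finite (par cs T)) (u : W) :
    StarConvex ℝ (center cs u T) (chart cs u T) :=
  starConvex_chart hT (center_mem_stratum u T)

end Vale.Agent.P203.Tits
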